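import Vale.Agent.P231.S3G.Ta

/-!
# P231, stage 3, block G: local versions of naturality

`In D O` says that all plots of `D` take values in `O` locally (for instance `D = D₀.on O`); the
forms of `D` are then determined by their pullbacks to the subtype `O`.
-/

set_option linter.unusedSectionVars false
set_option linter.unusedVariables false

open Set Module Filter Topology
open scoped ContDiff

namespace Vale.Agent.P231.S3G

open Fm W H584

variable {X Y M : Type*} {D : Dif X} {D' : Dif Y} {dM : Dif M} {T : ℝ} {O : Set X}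

/-- all plots of `D` take values in `O` locally -/
structure In (D : Dif X) (O : Set X) : Prop where
  ev : ∀ {E : Type} [NormedAddCommGroup E] [NormedSpace ℝ E] [FiniteDimensional ℝ E]
    {u : E → X} {x : E}, D.At u x → ∀ᶠ z in 𝓝 x, u z ∈ O

theorem In.on : In (D.on O) O := ⟨fun h => h.2⟩

theorem map_inc : (D.sub O).Map D (Subtype.val : O → X) := fun h => h

section Lift

variable {E : Type} [NormedAddCommGroup E] [NormedSpace ℝ E] [FiniteDimensional ℝ E]

open Classical in
theorem exists_lift {u : E → X} {x : E} (h : D.At u x) (hO : ∀ᶠ z in 𝓝 x, u z ∈ O) :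
    ∃ u' : E → O, (D.sub O).At u' x ∧ (fun z => (u' z : X)) =ᶠ[𝓝 x] u := by
  have hx : u x ∈ O := hO.self_of_nhds
  let u' : E → O := fun z => if hz : u z ∈ O then ⟨u z, hz⟩ else ⟨u x, hx⟩
  have h1 : (fun z => (u' z : X)) =ᶠ[𝓝 x] u := by
    filter_upwards [hO] with z hz
    simp only [u', dif_pos hz]
  exact ⟨u', D.congr h h1.symm, h1⟩

theorem val_sub (a : Form D) {u : E → X} {u' : E → O} {x : E} (h' : (D.sub O).At u' x)
    (h1 : (fun z => (u' z : X)) =ᶠ[𝓝 x] u) :
    a.val u x = (Form.pull (Subtype.val : O → X) map_inc a).val u' x := by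
  rw [Form.pull_val _ _ h']
  exact (a.congr (map_inc h') h1).symm

/-- the value of a form vanishes if its restriction to the subtype does -/
theorem val_eq_zero (a : Form D) (ha : Form.pull (Subtype.val : O → X) map_inc a = 0)
    {u : E → X} {x : E} (h : D.At u x) (hO : ∀ᶠ z in 𝓝 x, u z ∈ O) : a.val u x = 0 := by
  obtain ⟨u', h1, h2⟩ := exists_lift h hO
  rw [val_sub a h1 h2, ha, Form.zero_val]

theorem val_eq_val {a b : Form D} (hab : Form.pull (Subtype.val : O → X) map_inc a =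
    Form.pull (Subtype.val : O → X) map_inc b) {u : E → X} {x : E} (h : D.At u x)
    (hO : ∀ᶠ z in 𝓝 x, u z ∈ O) : a.val u x = b.val u x := by
  obtain ⟨u', h1, h2⟩ := exists_lift h hO
  rw [val_sub a h1 h2, hab, ← val_sub b h1 h2]

end Lift

theorem In.inj (hD : In D O) {a b : Form D} (hab : Form.pull (Subtype.val : O → X) map_inc a =
    Form.pull (Subtype.val : O → X) map_inc b) : a = b :=
  Form.ext_val fun E _ _ _ u x h => val_eq_val hab h (hD.ev h)

theorem In.prod (hD : In D O) : In (D.prod (Dif.lin ℝ)) {p : X × ℝ | p.1 ∈ O} :=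
  ⟨fun {E} _ _ _ {u x} h => hD.ev h.1⟩

/-- the restriction of a flow to an invariant subset, as a subtype -/
def subΦ (Φ : X × ℝ → X) (hO : ∀ x ∈ O, ∀ t, Φ (x, t) ∈ O) (p : O × ℝ) : O :=
  ⟨Φ (p.1, p.2), hO _ p.1.2 _⟩

theorem isFlow_sub {Φ : X × ℝ → X} (h : IsFlow D T Φ) (hO : ∀ x ∈ O, ∀ t, Φ (x, t) ∈ O) :
    IsFlow (D.sub O) T (subΦ Φ hO) where
  map := fun {E} _ _ _ {u x} hh => h.map (u := fun z => ((u z).1.1, (u z).2)) ⟨hh.1, hh.2⟩
  zero x := Subtype.ext (h.zero x.1)
  add x s t := Subtype.ext (h.add x.1 s t)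
  per x := Subtype.ext (h.per x.1)

/-- local version: basic forms are preserved by locally equivariant maps -/
theorem basic_pull_loc (hD : In D O) {Φ : X × ℝ → X} (h : IsFlow D T Φ)
    (hO : ∀ x ∈ O, ∀ t, Φ (x, t) ∈ O) {Φ' : Y × ℝ → Y}
    (h' : (D'.prod (Dif.lin ℝ)).Map D' Φ') {f : X → Y} (hf : D.Map D' f)
    (hc : ∀ x ∈ O, ∀ t, f (Φ (x, t)) = Φ' (f x, t)) {w : Form D'} (hw : Basic Φ' h' w) :
    Basic Φ h.map (Form.pull f hf w) := by
  have h2 : Form.pull Φ' h' w = pr w := hw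
  rw [basic_def]
  refine Form.ext_val fun E _ _ _ u x hu => ?_
  have hu1 : D.At (fun z => Φ (u z)) x := h.map hu
  have hu2 : (D'.prod (Dif.lin ℝ)).At (fun z => (f (u z).1, (u z).2)) x := ⟨hf hu.1, hu.2⟩
  rw [Form.pull_val _ _ hu]
  change (Form.pull f hf w).val (fun z => Φ (u z)) x =
    (Form.pull Prod.fst Dif.map_fst (Form.pull f hf w)).val u x
  rw [Form.pull_val _ _ hu1, Form.pull_val _ _ hu]
  change w.val (fun z => f (Φ (u z))) x = (Form.pull f hf w).val (fun z => (u z).1) x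
  rw [Form.pull_val _ _ (show D.At (fun z => (u z).1) x from hu.1)]
  change _ = w.val (fun z => f (u z).1) x
  have h3 := congrArg (fun a : Form (D'.prod (Dif.lin ℝ)) =>
    a.val (fun z => (f (u z).1, (u z).2)) x) h2
  change (Form.pull Φ' h' w).val _ x = (Form.pull Prod.fst Dif.map_fst w).val _ x at h3
  rw [Form.pull_val _ _ hu2, Form.pull_val _ _ hu2] at h3
  refine Eq.trans ?_ h3
  refine w.congr (hf hu1) ?_
  filter_upwards [hD.ev hu.1] with z hz
  exact hc _ hz _

namespace Lf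

variable {A0 C0 : ℝ} {F : Form dM}

/-- the restriction of a family to an invariant subset, as a subtype -/
noncomputable def sub (L : Lf D dM T) (hO : ∀ x ∈ O, ∀ t, L.Φ (x, t) ∈ O) :
    Lf (D.sub O) dM T where
  Φ := subΦ L.Φ hO
  flow := isFlow_sub L.flow hO
  α := Form.pull Subtype.val map_inc L.α
  con := by
    have h1 := flow_nat (isFlow_sub L.flow hO).map L.flow.map (map_inc (D := D) (O := O))
      (fun x t => rfl) L.α
    rw [← h1, L.con]
    refine (pull_add (map_cyl map_inc) _ _).trans ?_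
    rw [pull_pr map_inc, pull_dt map_inc]
  odd := by
    rw [← Form.pull_sg, L.odd, pull_neg]
  C := fun x => L.C x
  map := fun {E} _ _ _ {u x} h => L.map (map_inc h)

/-- local version of the naturality of the natural form -/
theorem ta_pull_loc (hD : In D O) {L : Lf D dM T} (hO : ∀ x ∈ O, ∀ t, L.Φ (x, t) ∈ O)
    {L' : Lf D' dM T} {f : X → Y} (hf : D.Map D' f)
    (hΦ : ∀ x ∈ O, ∀ t, f (L.Φ (x, t)) = L'.Φ (f x, t)) (hα : L.α = Form.pull f hf L'.α)
    (hC : ∀ x ∈ O, L.C x = L'.C (f x)) :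
    Form.pull f hf (L'.ta A0 C0 F) = L.ta A0 C0 F := by
  refine hD.inj ?_
  have hfi : (D.sub O).Map D' (fun x : O => f x) := fun {E} _ _ _ {u x} h => hf (map_inc h)
  rw [ta_pull (L := L.sub hO) (L' := L) map_inc (fun x t => rfl) rfl (fun x => rfl),
    pull_pull map_inc hf hfi (fun x => rfl)]
  refine ta_pull (L := L.sub hO) (L' := L') hfi (fun x t => hΦ _ x.2 t) ?_ (fun x => hC _ x.2)
  change Form.pull Subtype.val map_inc L.α = _
  rw [hα, pull_pull map_inc hf hfi (fun x => rfl)]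

/-- the integral of a homotopy vanishes where the homotopy is one of constant loops -/
theorem kt_val_zero (L : Lf D dM T) {H : X × ℝ → M} (hH : (D.prod (Dif.lin ℝ)).Map dM H)
    (hO : ∀ x ∈ O, ∀ t, L.Φ (x, t) ∈ O)
    (h : ∀ x ∈ O, ∀ t s, H (L.Φ (x, t), s) = H (x, s)) {E : Type} [NormedAddCommGroup E]
    [NormedSpace ℝ E] [FiniteDimensional ℝ E] {u : E → X} {x : E} (hu : D.At u x)
    (hu2 : ∀ᶠ z in 𝓝 x, u z ∈ O) : (kt A0 C0 F L hH).val u x = 0 := by
  refine val_eq_zero _ ?_ hu hu2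
  have hH' : ((D.sub O).prod (Dif.lin ℝ)).Map dM (fun p : O × ℝ => H (p.1, p.2)) :=
    fun {E} _ _ _ {u x} h => hH (map_cyl map_inc h)
  rw [kt_pull (L := L.sub hO) map_inc (fun x t => rfl) rfl hH' hH (fun x s => rfl)]
  exact kt_inv _ hH' (fun x t s => h _ x.2 t s)

theorem wM_ta_congr (L : Lf D dM T) {C C' : X → M} (hC : D.Map dM C) (hC' : D.Map dM C')
    (h : ∀ x, C x = C' x) : (L.wM hC).ta A0 C0 F = (L.wM hC').ta A0 C0 F := by
  obtain rfl : C = C' := funext h
  rfl

end Lf

end Vale.Agent.P231.S3G
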