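import Vale.Agent.P231.S3G.Glue
import Vale.Agent.P231.H584.Tow

/-!
# P231, stage 3, block G: families of loops and their natural form
-/

set_option linter.unusedSectionVars false
set_option linter.unusedVariables false

open Set Module Filter Topology
open scoped ContDiff

namespace Vale.Agent.P231.S3G

open Fm W H584

variable {X Y M : Type*} {D : Dif X} {D' : Dif Y} {dM : Dif M} {T : ℝ}

/-- a family of loops over a space with a periodic flow and a connection form -/
structure Lf (D : Dif X) (dM : Dif M) (T : ℝ) where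
  Φ : X × ℝ → X
  flow : IsFlow D T Φ
  α : Form D
  con : Form.pull Φ flow.map α = pr α + dt
  odd : α.sg = -α
  C : X → M
  map : D.Map dM C

/-- closed even forms with vanishing cube -/
structure Cf (F : Form dM) : Prop where
  d : F.d = 0
  sg : F.sg = F
  cube : F ^ (2 + 1) = 0

theorem Cf.pull {F : Form dM} (h : Cf F) {f : X → M} (hf : D.Map dM f) :
    Cf (Form.pull f hf F) := by
  obtain ⟨h1, h2, h3⟩ := pull_good h.d h.sg h.cube hf
  exact ⟨h1, h2, h3⟩

namespace Lf

variable (A0 C0 : ℝ) (F : Form dM)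

/-- the natural form of a family -/
noncomputable def ta (L : Lf D dM T) : Form D :=
  tau A0 C0 L.Φ L.flow.map T L.α (Form.pull L.C L.map F)

variable {A0 C0 F}

theorem ta_pull {L : Lf D dM T} {L' : Lf D' dM T} {f : X → Y} (hf : D.Map D' f)
    (hΦ : ∀ x t, f (L.Φ (x, t)) = L'.Φ (f x, t)) (hα : L.α = Form.pull f hf L'.α)
    (hC : ∀ x, L.C x = L'.C (f x)) : Form.pull f hf (L'.ta A0 C0 F) = L.ta A0 C0 F := by
  rw [ta, pull_tau L.flow.map L'.flow.map hf hΦ, ta, ← hα, pull_pull hf L'.map L.map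
    (fun x => (hC x).symm)]

theorem ta_basic (L : Lf D dM T) (hF : Cf F) : Basic L.Φ L.flow.map (L.ta A0 C0 F) :=
  tau_basic L.flow A0 C0 L.con L.odd (hF.pull L.map).sg

theorem ta_d (L : Lf D dM T) (hT : T ≠ 0) (hF : Cf F) : (L.ta A0 C0 F).d = 0 :=
  tau_d L.flow A0 C0 hT L.con L.odd (hF.pull L.map).sg (hF.pull L.map).d (hF.pull L.map).cube

theorem ta_sg (L : Lf D dM T) (hF : Cf F) : (L.ta A0 C0 F).sg = -L.ta A0 C0 F :=
  tau_sg L.flow A0 C0 L.con L.odd (hF.pull L.map).sg

/-- the natural form vanishes for constant loops -/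
theorem ta_inv (L : Lf D dM T) (h : ∀ x t, L.C (L.Φ (x, t)) = L.C x) : L.ta A0 C0 F = 0 :=
  tau_of_basic A0 C0 (hΦ := L.flow.map) (basic_pull (hΦ := L.flow.map) L.map h F)

/-- the cylinder over a family, with a homotopy -/
noncomputable def cyl (L : Lf D dM T) {H : X × ℝ → M} (hH : (D.prod (Dif.lin ℝ)).Map dM H) :
    Lf (D.prod (Dif.lin ℝ)) dM T where
  Φ := cflow L.Φ
  flow := isFlow_cflow L.flow
  α := pr L.α
  con := cflow_contact L.flow L.con
  odd := pr_odd L.odd
  C := H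
  map := hH

/-- the same flow and connection, another map -/
noncomputable def wM (L : Lf D dM T) {C : X → M} (hC : D.Map dM C) : Lf D dM T where
  Φ := L.Φ
  flow := L.flow
  α := L.α
  con := L.con
  odd := L.odd
  C := C
  map := hC

/-- the restriction to an invariant subset -/
noncomputable def on (L : Lf D dM T) {O : Set X} (hO : ∀ x ∈ O, ∀ t, L.Φ (x, t) ∈ O) :
    Lf (D.on O) dM T where
  Φ := L.Φ
  flow := isFlow_on L.flow hO
  α := Form.res O L.α
  con := contact_res L.flow hO L.con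
  odd := by
    rw [Form.res_sg, L.odd, Form.res_neg]
  C := L.C
  map := fun {E} _ _ _ {u x} h => L.map h.1

/-- the integral of the natural form of a homotopy -/
noncomputable def kt (A0 C0 : ℝ) (F : Form dM) (L : Lf D dM T) {H : X × ℝ → M}
    (hH : (D.prod (Dif.lin ℝ)).Map dM H) : Form D := Form.K ((L.cyl hH).ta A0 C0 F)

theorem kt_basic (L : Lf D dM T) (hF : Cf F) {H : X × ℝ → M}
    (hH : (D.prod (Dif.lin ℝ)).Map dM H) : Basic L.Φ L.flow.map (kt A0 C0 F L hH) :=
  basic_K ((L.cyl hH).ta_basic hF)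

theorem at_ta (L : Lf D dM T) {H : X × ℝ → M} (hH : (D.prod (Dif.lin ℝ)).Map dM H) (s : ℝ) :
    at_ s ((L.cyl hH).ta A0 C0 F) = (L.wM (map_at hH s)).ta A0 C0 F :=
  ta_pull (Form.map_slice s) (fun x t => rfl) (at_pr s L.α).symm (fun x => rfl)

/-- **homotopy formula** -/
theorem kt_d (L : Lf D dM T) (hT : T ≠ 0) (hF : Cf F) {H : X × ℝ → M}
    (hH : (D.prod (Dif.lin ℝ)).Map dM H) : (kt A0 C0 F L hH).d =
      (L.wM (map_at hH 1)).ta A0 C0 F - (L.wM (map_at hH 0)).ta A0 C0 F := by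
  have h := homotopy' ((L.cyl hH).ta A0 C0 F)
  rw [(L.cyl hH).ta_d hT hF, K_zero, zero_add, at_ta, at_ta] at h
  exact h.symm

/-- naturality of the integral of a homotopy -/
theorem kt_pull {L : Lf D dM T} {L' : Lf D' dM T} {f : X → Y} (hf : D.Map D' f)
    (hΦ : ∀ x t, f (L.Φ (x, t)) = L'.Φ (f x, t)) (hα : L.α = Form.pull f hf L'.α)
    {H : X × ℝ → M} (hH : (D.prod (Dif.lin ℝ)).Map dM H) {H' : Y × ℝ → M}
    (hH' : (D'.prod (Dif.lin ℝ)).Map dM H') (hHH : ∀ x s, H (x, s) = H' (f x, s)) :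
    Form.pull f hf (kt A0 C0 F L' hH') = kt A0 C0 F L hH := by
  have h1 : Form.pull (fun p : X × ℝ => (f p.1, p.2)) (map_cyl hf)
      ((L'.cyl hH').ta A0 C0 F) = (L.cyl hH).ta A0 C0 F := by
    refine ta_pull (map_cyl hf) (fun x t => ?_) ?_ (fun x => hHH x.1 x.2)
    · change (f (L.Φ (x.1, t)), x.2) = (L'.Φ (f x.1, t), x.2)
      rw [hΦ]
    · change pr L.α = Form.pull _ (map_cyl hf) (pr L'.α)
      rw [pull_pr hf, ← hα]
  unfold kt
  rw [← K_nat hf, h1]

/-- the integral of a homotopy through constant loops vanishes -/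
theorem kt_inv (L : Lf D dM T) {H : X × ℝ → M} (hH : (D.prod (Dif.lin ℝ)).Map dM H)
    (h : ∀ x t s, H (L.Φ (x, t), s) = H (x, s)) : kt A0 C0 F L hH = 0 := by
  unfold kt
  rw [ta_inv _ (fun x t => h x.1 t x.2), K_zero]

end Lf

end Vale.Agent.P231.S3G
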