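import Vale.Agent.P231.S3G.Sub

/-!
# P231, stage 3, block G: the gluing lemma

A family of loops which is in normal form near the critical level has exact natural form, if this
holds for the standard family.
-/

set_option linter.unusedSectionVars false
set_option linter.unusedVariables false

open Set Module Filter Topology
open scoped ContDiff

namespace Vale.Agent.P231.S3G

open Fm W H584

variable {B X M : Type*} {dB : Dif B} {dX : Dif X} {dM : Dif M} {T : ℝ}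

/-- the region where the family is in normal form -/
def Nr (U : Set B) (ν : B → ℝ) (c : ℝ) : Set B := {b | b ∈ U ∧ ν b < c}

/-- the same region without the critical points -/
def Ns (U : Set B) (ν : B → ℝ) (c : ℝ) : Set B := {b | b ∈ U ∧ 0 < ν b ∧ ν b < c}

/-- the complement of `{ν ≤ c}` -/
def Bs (U : Set B) (ν : B → ℝ) (c : ℝ) : Set B := {b | b ∈ U → c < ν b}

/-- the data of the gluing lemma -/
structure GD (L : Lf dB dM T) (LX : Lf dX dM T) (X1 : Set X) where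
  /-- the homotopy to the normal form -/
  H : B × ℝ → M
  hH : (dB.prod (Dif.lin ℝ)).Map dM H
  H0 : ∀ b, H (b, 0) = L.C b
  Hc : ∀ b, (∀ t, L.C (L.Φ (b, t)) = L.C b) → ∀ s, H (b, s) = L.C b
  /-- the region where the normal form holds -/
  U : Set B
  Uo : ∀ {E : Type} [NormedAddCommGroup E] [NormedSpace ℝ E] [FiniteDimensional ℝ E]
    {u : E → B} {x : E}, dB.At u x → u x ∈ U → ∀ᶠ z in 𝓝 x, u z ∈ U
  Ui : ∀ b ∈ U, ∀ t, L.Φ (b, t) ∈ U
  Uc : ∀ b ∈ U, ∃ t, L.C (L.Φ (b, t)) ≠ L.C b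
  ν : B → ℝ
  hν : (dB.on U).Map (Dif.lin ℝ) ν
  νi : ∀ b ∈ U, ∀ t, ν (L.Φ (b, t)) = ν b
  c0 : ℝ
  c1 : ℝ
  c2 : ℝ
  c0_pos : 0 < c0
  c01 : c0 < c1
  c12 : c1 < c2
  closed : ∀ {E : Type} [NormedAddCommGroup E] [NormedSpace ℝ E] [FiniteDimensional ℝ E]
    {u : E → B} {x : E}, dB.At u x → u x ∉ U → ∀ᶠ z in 𝓝 x, u z ∈ U → c1 < ν (u z)
  /-- the map to the standard family -/
  P0 : B → X
  hP0 : (dB.on (Nr U ν c2)).Map dX P0
  P0Φ : ∀ b ∈ Nr U ν c2, ∀ t, P0 (L.Φ (b, t)) = LX.Φ (P0 b, t)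
  P0C : ∀ b ∈ Nr U ν c2, H (b, 1) = LX.C (P0 b)
  P0α : Form.res (Nr U ν c2) L.α = Form.pull P0 hP0 LX.α
  /-- the turned map to the standard family -/
  P1 : B → X
  hP1 : (dB.on (Ns U ν c2)).Map dX P1
  P1Φ : ∀ b ∈ Ns U ν c2, ∀ t, P1 (L.Φ (b, t)) = LX.Φ (P1 b, t)
  P1α : Form.res (Ns U ν c2) L.α = Form.pull P1 hP1 LX.α
  P10 : ∀ b ∈ Ns U ν c2, c1 < ν b → P1 b = P0 b
  P1X : ∀ b ∈ Ns U ν c2, ν b < c0 → P1 b ∈ X1
  /-- the family of short loops and its contraction -/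
  Hp : B × ℝ → M
  hHp : ((dB.on (Bs U ν 0)).prod (Dif.lin ℝ)).Map dM Hp
  Hp1 : ∀ b t, Hp (L.Φ (b, t), 1) = Hp (b, 1)
  Hpc : ∀ b, (∀ t, Hp (L.Φ (b, t), 0) = Hp (b, 0)) → ∀ s, Hp (b, s) = Hp (b, 0)
  HpN : ∀ b ∈ Ns U ν c2, Hp (b, 0) = LX.C (P1 b)
  HpO : ∀ b, (b ∈ U → c1 < ν b) → Hp (b, 0) = H (b, 1)
  HpZ : ∀ b ∈ Ns U ν c2, ν b < c0 → ∀ t, Hp (L.Φ (b, t), 0) = Hp (b, 0)

namespace GD

variable {L : Lf dB dM T} {LX : Lf dX dM T} {X1 : Set X} (S : GD L LX X1)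
  {A0 C0 : ℝ} {F : Form dM}

/-! invariance and openness -/

theorem Nr_inv (c : ℝ) : ∀ b ∈ Nr S.U S.ν c, ∀ t, L.Φ (b, t) ∈ Nr S.U S.ν c := fun b hb t =>
  ⟨S.Ui b hb.1 t, by rw [S.νi b hb.1]; exact hb.2⟩

theorem Ns_inv (c : ℝ) : ∀ b ∈ Ns S.U S.ν c, ∀ t, L.Φ (b, t) ∈ Ns S.U S.ν c := fun b hb t =>
  ⟨S.Ui b hb.1 t, by rw [S.νi b hb.1]; exact hb.2⟩

theorem Bs_inv (c : ℝ) : ∀ b ∈ Bs S.U S.ν c, ∀ t, L.Φ (b, t) ∈ Bs S.U S.ν c := by
  intro b hb t ht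
  have h1 : b ∈ S.U := by
    have h2 := S.Ui _ ht (-t)
    rwa [L.flow.add, add_neg_cancel, L.flow.zero] at h2
  rw [S.νi b h1]
  exact hb h1

section Plot

variable {E : Type} [NormedAddCommGroup E] [NormedSpace ℝ E] [FiniteDimensional ℝ E]
  {u : E → B} {x : E}

theorem at_U (hu : dB.At u x) (hx : u x ∈ S.U) : (dB.on S.U).At u x := ⟨hu, S.Uo hu hx⟩

theorem cont (hu : dB.At u x) (hx : u x ∈ S.U) : ContinuousAt (fun z => S.ν (u z)) x :=
  Sm.continuousAt (S.hν (S.at_U hu hx))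

theorem ev_lt {c : ℝ} (hu : dB.At u x) (hx : u x ∈ Nr S.U S.ν c) :
    ∀ᶠ z in 𝓝 x, u z ∈ Nr S.U S.ν c := by
  filter_upwards [S.Uo hu hx.1, (S.cont hu hx.1).eventually (gt_mem_nhds hx.2)] with z h1 h2
    using ⟨h1, h2⟩

theorem ev_Ns {c : ℝ} (hu : dB.At u x) (hx : u x ∈ Ns S.U S.ν c) :
    ∀ᶠ z in 𝓝 x, u z ∈ Ns S.U S.ν c := by
  filter_upwards [S.Uo hu hx.1, (S.cont hu hx.1).eventually (gt_mem_nhds hx.2.2),
    (S.cont hu hx.1).eventually (lt_mem_nhds hx.2.1)] with z h1 h2 h3 using ⟨h1, h3, h2⟩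

theorem ev_Bs {c : ℝ} (hc : c ≤ S.c1) (hu : dB.At u x) (hx : u x ∈ Bs S.U S.ν c) :
    ∀ᶠ z in 𝓝 x, u z ∈ Bs S.U S.ν c := by
  by_cases h : u x ∈ S.U
  · filter_upwards [(S.cont hu h).eventually (lt_mem_nhds (hx h))] with z h1 h2 using h1
  · filter_upwards [S.closed hu h] with z h1 h2 using hc.trans_lt (h1 h2)

end Plot

/-- the three regions -/
def Og : Fin 3 → Set B := ![Bs S.U S.ν S.c1, Ns S.U S.ν S.c2, Nr S.U S.ν S.c0]

theorem Og_inv (i : Fin 3) : ∀ b ∈ S.Og i, ∀ t, L.Φ (b, t) ∈ S.Og i := by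
  fin_cases i
  · exact S.Bs_inv _
  · exact S.Ns_inv _
  · exact S.Nr_inv _

theorem cover {E : Type} [NormedAddCommGroup E] [NormedSpace ℝ E] [FiniteDimensional ℝ E]
    {u : E → B} {x : E} (hu : dB.At u x) : ∃ i, (dB.on (S.Og i)).At u x := by
  by_cases h : u x ∈ Bs S.U S.ν S.c1
  · exact ⟨0, hu, S.ev_Bs le_rfl hu h⟩
  · have h1 : u x ∈ S.U ∧ S.ν (u x) ≤ S.c1 := by
      have h2 : ¬ (u x ∈ S.U → S.c1 < S.ν (u x)) := h
      push Not at h2
      exact h2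
    by_cases h2 : 0 < S.ν (u x)
    · exact ⟨1, hu, S.ev_Ns hu ⟨h1.1, h2, h1.2.trans_lt S.c12⟩⟩
    · exact ⟨2, hu, S.ev_lt hu ⟨h1.1, (not_lt.1 h2).trans_lt S.c0_pos⟩⟩

/-- the restricted families -/
noncomputable def Ls : Lf (dB.on (Bs S.U S.ν 0)) dM T := L.on (S.Bs_inv 0)

variable (A0 C0 F)

/-- the integral of the natural form of the first homotopy -/
noncomputable def lH : Form dB := Lf.kt A0 C0 F L S.hH

/-- the integral of the natural form of the contraction -/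
noncomputable def lp : Form (dB.on (Bs S.U S.ν 0)) := Lf.kt A0 C0 F S.Ls S.hHp

variable {A0 C0 F}

theorem Bs_mono : Bs S.U S.ν S.c1 ⊆ Bs S.U S.ν 0 := fun b hb h =>
  (S.c0_pos.trans S.c01).trans (hb h)

theorem Ns_sub : Ns S.U S.ν S.c2 ⊆ Bs S.U S.ν 0 := fun b hb h => hb.2.1

theorem Ns_Nr : Ns S.U S.ν S.c2 ⊆ Nr S.U S.ν S.c2 := fun b hb => ⟨hb.1, hb.2.2⟩

theorem Nr_Nr : Nr S.U S.ν S.c0 ⊆ Nr S.U S.ν S.c2 := fun b hb =>
  ⟨hb.1, hb.2.trans (S.c01.trans S.c12)⟩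

variable (A0 C0 F) (lX : Form dX)

/-- the local primitives -/
noncomputable def loc : ∀ i, Form (dB.on (S.Og i))
  | 0 => -Form.pull id Dif.map_on (S.lH A0 C0 F) -
      Form.pull id (Dif.map_on_mono S.Bs_mono) (S.lp A0 C0 F)
  | 1 => -Form.pull id Dif.map_on (S.lH A0 C0 F) -
      Form.pull id (Dif.map_on_mono S.Ns_sub) (S.lp A0 C0 F) +
      Form.pull id (Dif.map_on_mono S.Ns_Nr) (Form.pull S.P0 S.hP0 lX) -
      Form.pull S.P1 S.hP1 lX
  | 2 => -Form.pull id Dif.map_on (S.lH A0 C0 F) +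
      Form.pull id (Dif.map_on_mono S.Nr_Nr) (Form.pull S.P0 S.hP0 lX)

variable {A0 C0 F lX}

section Val

variable {E : Type} [NormedAddCommGroup E] [NormedSpace ℝ E] [FiniteDimensional ℝ E]
  {u : E → B} {x : E}

theorem loc0_val (hu : (dB.on (S.Og 0)).At u x) : (S.loc A0 C0 F lX 0).val u x =
    -(S.lH A0 C0 F).val u x - (S.lp A0 C0 F).val u x := by
  change (-Form.pull id Dif.map_on (S.lH A0 C0 F) -
      Form.pull id (Dif.map_on_mono S.Bs_mono) (S.lp A0 C0 F)).val u x = _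
  rw [Form.sub_val, Form.neg_val, Form.pull_val (D := dB.on (Bs S.U S.ν S.c1)) _ _ hu,
    Form.pull_val (D := dB.on (Bs S.U S.ν S.c1)) _ _ hu]
  rfl

theorem loc1_val (hu : (dB.on (S.Og 1)).At u x) : (S.loc A0 C0 F lX 1).val u x =
    -(S.lH A0 C0 F).val u x - (S.lp A0 C0 F).val u x + lX.val (S.P0 ∘ u) x -
      lX.val (S.P1 ∘ u) x := by
  have hu' : (dB.on (Nr S.U S.ν S.c2)).At u x := Dif.map_on_mono S.Ns_Nr hu
  change (-Form.pull id Dif.map_on (S.lH A0 C0 F) -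
      Form.pull id (Dif.map_on_mono S.Ns_sub) (S.lp A0 C0 F) +
      Form.pull id (Dif.map_on_mono S.Ns_Nr) (Form.pull S.P0 S.hP0 lX) -
      Form.pull S.P1 S.hP1 lX).val u x = _
  rw [Form.sub_val, Form.add_val, Form.sub_val, Form.neg_val,
    Form.pull_val (D := dB.on (Ns S.U S.ν S.c2)) _ _ hu,
    Form.pull_val (D := dB.on (Ns S.U S.ν S.c2)) _ _ hu,
    Form.pull_val (D := dB.on (Ns S.U S.ν S.c2)) _ _ hu,
    Form.pull_val (D := dB.on (Ns S.U S.ν S.c2)) _ _ hu]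
  change _ - _ + (Form.pull S.P0 S.hP0 lX).val u x - _ = _
  rw [Form.pull_val _ _ hu']
  rfl

theorem loc2_val (hu : (dB.on (S.Og 2)).At u x) : (S.loc A0 C0 F lX 2).val u x =
    -(S.lH A0 C0 F).val u x + lX.val (S.P0 ∘ u) x := by
  have hu' : (dB.on (Nr S.U S.ν S.c2)).At u x := Dif.map_on_mono S.Nr_Nr hu
  change (-Form.pull id Dif.map_on (S.lH A0 C0 F) +
      Form.pull id (Dif.map_on_mono S.Nr_Nr) (Form.pull S.P0 S.hP0 lX)).val u x = _
  rw [Form.add_val, Form.neg_val,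
    Form.pull_val (D := dB.on (Nr S.U S.ν S.c0)) _ _ hu,
    Form.pull_val (D := dB.on (Nr S.U S.ν S.c0)) _ _ hu]
  change _ + (Form.pull S.P0 S.hP0 lX).val u x = _
  rw [Form.pull_val _ _ hu']
  rfl

theorem key01 (h0 : (dB.on (S.Og 0)).At u x) (h1 : (dB.on (S.Og 1)).At u x) :
    (S.loc A0 C0 F lX 0).val u x = (S.loc A0 C0 F lX 1).val u x := by
  rw [S.loc0_val h0, S.loc1_val h1]
  have h2 : lX.val (S.P1 ∘ u) x = lX.val (S.P0 ∘ u) x := by
    refine lX.congr (S.hP1 (show (dB.on (Ns S.U S.ν S.c2)).At u x from h1)) ?_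
    filter_upwards [h0.2, h1.2] with z hz0 hz1
    exact S.P10 _ hz1 (hz0 hz1.1)
  rw [h2, add_sub_cancel_right]

theorem lp_zero (h1 : (dB.on (S.Og 1)).At u x) (h2 : (dB.on (S.Og 2)).At u x) :
    (S.lp A0 C0 F).val u x = 0 := by
  have hu : (dB.on (Bs S.U S.ν 0)).At u x :=
    Dif.map_on_mono S.Ns_sub (show (dB.on (Ns S.U S.ν S.c2)).At u x from h1)
  refine Lf.kt_val_zero S.Ls S.hHp (O := Ns S.U S.ν S.c0) (fun b hb t => S.Ns_inv _ b hb t)
    (fun b hb t s => ?_) hu ?_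
  · have hb' : ∀ b ∈ Ns S.U S.ν S.c0, b ∈ Ns S.U S.ν S.c2 := fun b hb =>
      ⟨hb.1, hb.2.1, hb.2.2.trans (S.c01.trans S.c12)⟩
    have hb1 := S.Ns_inv _ b hb t
    have e1 := S.Hpc b (S.HpZ b (hb' b hb) hb.2.2) s
    have e2 := S.Hpc _ (S.HpZ _ (hb' _ hb1) hb1.2.2) s
    change S.Hp (L.Φ (b, t), s) = _
    rw [e1, e2, S.HpZ b (hb' b hb) hb.2.2]
  · filter_upwards [h1.2, h2.2] with z hz1 hz2 using ⟨hz2.1, hz1.2.1, hz2.2⟩

theorem key12 (hX : ∀ {E : Type} [NormedAddCommGroup E] [NormedSpace ℝ E]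
    [FiniteDimensional ℝ E] {v : E → X} {y : E}, dX.At v y → (∀ᶠ z in 𝓝 y, v z ∈ X1) →
      lX.val v y = 0) (h1 : (dB.on (S.Og 1)).At u x) (h2 : (dB.on (S.Og 2)).At u x) :
    (S.loc A0 C0 F lX 1).val u x = (S.loc A0 C0 F lX 2).val u x := by
  rw [S.loc1_val h1, S.loc2_val h2, S.lp_zero h1 h2]
  have h3 : lX.val (S.P1 ∘ u) x = 0 := by
    refine hX (S.hP1 (show (dB.on (Ns S.U S.ν S.c2)).At u x from h1)) ?_
    filter_upwards [h1.2, h2.2] with z hz1 hz2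
    exact S.P1X _ hz1 hz2.2
  rw [h3, sub_zero, sub_zero]

theorem key02 (h0 : (dB.on (S.Og 0)).At u x) (h2 : (dB.on (S.Og 2)).At u x) : False := by
  have e0 : u x ∈ Bs S.U S.ν S.c1 := h0.2.self_of_nhds
  have e2 : u x ∈ Nr S.U S.ν S.c0 := h2.2.self_of_nhds
  exact absurd (e0 e2.1) (not_lt.2 (e2.2.trans S.c01).le)

end Val

theorem compat (hX : ∀ {E : Type} [NormedAddCommGroup E] [NormedSpace ℝ E]
    [FiniteDimensional ℝ E] {v : E → X} {y : E}, dX.At v y → (∀ᶠ z in 𝓝 y, v z ∈ X1) →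
      lX.val v y = 0) (i j : Fin 3) {E : Type} [NormedAddCommGroup E] [NormedSpace ℝ E]
    [FiniteDimensional ℝ E] {u : E → B} {x : E} (hi : (dB.on (S.Og i)).At u x)
    (hj : (dB.on (S.Og j)).At u x) :
    (S.loc A0 C0 F lX i).val u x = (S.loc A0 C0 F lX j).val u x := by
  fin_cases i <;> fin_cases j
  · rfl
  · exact S.key01 hi hj
  · exact (S.key02 hi hj).elim
  · exact (S.key01 hj hi).symm
  · rfl
  · exact S.key12 hX hi hj
  · exact (S.key02 hj hi).elim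
  · exact (S.key12 hX hj hi).symm
  · rfl

/-! the differentials -/

theorem lp_d (hT : T ≠ 0) (hF : Cf F) : (S.lp A0 C0 F).d =
    -(S.Ls.wM (map_at S.hHp 0)).ta A0 C0 F := by
  have h1 : (S.Ls.wM (map_at S.hHp 1)).ta A0 C0 F = 0 := Lf.ta_inv _ fun b t => S.Hp1 b t
  unfold lp
  rw [Lf.kt_d _ hT hF, h1, zero_sub]

theorem lH_d (hT : T ≠ 0) (hF : Cf F) : (S.lH A0 C0 F).d =
    (L.wM (map_at S.hH 1)).ta A0 C0 F - L.ta A0 C0 F := by
  have h1 : (L.wM (map_at S.hH 0)).ta A0 C0 F = L.ta A0 C0 F :=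
    L.wM_ta_congr (map_at S.hH 0) L.map S.H0
  unfold lH
  rw [Lf.kt_d _ hT hF, h1]

theorem eP0 : Form.pull S.P0 S.hP0 (LX.ta A0 C0 F) =
    Form.pull id Dif.map_on ((L.wM (map_at S.hH 1)).ta A0 C0 F) := by
  have h1 : (dB.on (Nr S.U S.ν S.c2)).Map dM (fun b => S.H (b, 1)) :=
    fun {E} _ _ _ {u x} h => map_at S.hH 1 h.1
  rw [Lf.ta_pull_loc In.on (L := (L.on (S.Nr_inv S.c2)).wM h1) (S.Nr_inv S.c2) S.hP0
    S.P0Φ S.P0α S.P0C]
  exact (Lf.ta_pull (L := (L.on (S.Nr_inv S.c2)).wM h1) (L' := L.wM (map_at S.hH 1))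
    Dif.map_on (fun b t => rfl) rfl (fun b => rfl)).symm

theorem eP1 : Form.pull S.P1 S.hP1 (LX.ta A0 C0 F) =
    Form.pull id (Dif.map_on_mono S.Ns_sub) ((S.Ls.wM (map_at S.hHp 0)).ta A0 C0 F) := by
  have h1 : (dB.on (Ns S.U S.ν S.c2)).Map dM (fun b => S.Hp (b, 0)) :=
    fun {E} _ _ _ {u x} h => map_at S.hHp 0 (Dif.map_on_mono S.Ns_sub h)
  rw [Lf.ta_pull_loc In.on (L := (L.on (S.Ns_inv S.c2)).wM h1) (S.Ns_inv S.c2) S.hP1
    S.P1Φ S.P1α S.HpN]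
  refine (Lf.ta_pull (L := (L.on (S.Ns_inv S.c2)).wM h1) (Dif.map_on_mono S.Ns_sub)
    (fun b t => rfl) ?_ (fun b => rfl)).symm
  exact (pull_pull (k := id) (Dif.map_on_mono S.Ns_sub) Dif.map_on Dif.map_on
    (fun b => rfl) L.α).symm

theorem eO : Form.pull id (Dif.map_on_mono S.Bs_mono)
      ((S.Ls.wM (map_at S.hHp 0)).ta A0 C0 F) =
    Form.pull id Dif.map_on ((L.wM (map_at S.hH 1)).ta A0 C0 F) := by
  have h1 : (dB.on (Bs S.U S.ν S.c1)).Map dM (fun b => S.H (b, 1)) :=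
    fun {E} _ _ _ {u x} h => map_at S.hH 1 h.1
  have h2 : Form.pull id (Dif.map_on_mono S.Bs_mono)
      ((S.Ls.wM (map_at S.hHp 0)).ta A0 C0 F) =
        ((L.on (S.Bs_inv S.c1)).wM h1).ta A0 C0 F := by
    refine Lf.ta_pull_loc In.on (S.Bs_inv S.c1) (Dif.map_on_mono S.Bs_mono)
      (fun b hb t => rfl) ?_ (fun b hb => (S.HpO b hb).symm)
    exact (pull_pull (k := id) (Dif.map_on_mono S.Bs_mono) Dif.map_on Dif.map_on
      (fun b => rfl) L.α).symm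
  rw [h2]
  exact (Lf.ta_pull (L := (L.on (S.Bs_inv S.c1)).wM h1) (L' := L.wM (map_at S.hH 1))
    Dif.map_on (fun b t => rfl) rfl (fun b => rfl)).symm

theorem pid_pid {O₁ O₂ : Set B} (h : O₁ ⊆ O₂) (a : Form dB) :
    Form.pull id (Dif.map_on_mono h) (Form.pull id (Dif.map_on (O := O₂)) a) =
      Form.pull id (Dif.map_on (O := O₁)) a :=
  pull_pull (Dif.map_on_mono h) Dif.map_on Dif.map_on (fun _ => rfl) a

theorem pd {O₁ O₂ : Set B} (h : O₁ ⊆ O₂) (a : Form (dB.on O₂)) :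
    (Form.pull id (Dif.map_on_mono h) a).d = Form.pull id (Dif.map_on_mono h) a.d :=
  (Form.pull_d _ _ a).symm

/-- the differential of the local primitives -/
theorem loc_d (hT : T ≠ 0) (hF : Cf F) (hd : lX.d = LX.ta A0 C0 F) (i : Fin 3) :
    (S.loc A0 C0 F lX i).d = Form.pull id Dif.map_on (L.ta A0 C0 F) := by
  have e1 := S.lH_d hT hF (A0 := A0) (C0 := C0)
  have e2 := S.lp_d hT hF (A0 := A0) (C0 := C0)
  have e3 := S.eP0 (A0 := A0) (C0 := C0) (F := F)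
  have e4 := S.eP1 (A0 := A0) (C0 := C0) (F := F)
  have e5 := S.eO (A0 := A0) (C0 := C0) (F := F)
  fin_cases i
  · change (-Form.pull id Dif.map_on (S.lH A0 C0 F) -
      Form.pull id (Dif.map_on_mono S.Bs_mono) (S.lp A0 C0 F)).d = _
    rw [Form.d_sub, Form.d_neg, pd S.Bs_mono, ← Form.pull_d, e1, e2, pull_sub, pull_neg, e5]
    change _ = Form.pull id Dif.map_on (L.ta A0 C0 F)
    abel
  · change (-Form.pull id Dif.map_on (S.lH A0 C0 F) -
      Form.pull id (Dif.map_on_mono S.Ns_sub) (S.lp A0 C0 F) +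
      Form.pull id (Dif.map_on_mono S.Ns_Nr) (Form.pull S.P0 S.hP0 lX) -
      Form.pull S.P1 S.hP1 lX).d = _
    rw [Form.d_sub, Form.d_add, Form.d_sub, Form.d_neg, pd S.Ns_sub, pd S.Ns_Nr,
      ← Form.pull_d, ← Form.pull_d, ← Form.pull_d, e1, e2, hd, e3, e4, pull_sub, pull_neg,
      pid_pid S.Ns_Nr]
    change _ = Form.pull id Dif.map_on (L.ta A0 C0 F)
    abel
  · change (-Form.pull id Dif.map_on (S.lH A0 C0 F) +
      Form.pull id (Dif.map_on_mono S.Nr_Nr) (Form.pull S.P0 S.hP0 lX)).d = _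
    rw [Form.d_add, Form.d_neg, pd S.Nr_Nr, ← Form.pull_d, ← Form.pull_d, e1, hd, e3, pull_sub,
      pid_pid S.Nr_Nr]
    change _ = Form.pull id Dif.map_on (L.ta A0 C0 F)
    abel

/-! the local primitives are basic -/

theorem loc_basic (hF : Cf F) (hX : Basic LX.Φ LX.flow.map lX) (i : Fin 3) :
    Basic L.Φ (isFlow_on L.flow (S.Og_inv i)).map (S.loc A0 C0 F lX i) := by
  have b1 : Basic L.Φ L.flow.map (S.lH A0 C0 F) := Lf.kt_basic L hF S.hH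
  have b2 : Basic L.Φ (isFlow_on L.flow (S.Bs_inv 0)).map (S.lp A0 C0 F) :=
    Lf.kt_basic S.Ls hF S.hHp
  have b3 : Basic L.Φ (isFlow_on L.flow (S.Nr_inv S.c2)).map (Form.pull S.P0 S.hP0 lX) :=
    basic_pull_loc In.on (isFlow_on L.flow (S.Nr_inv S.c2)) (S.Nr_inv S.c2) LX.flow.map S.hP0
      S.P0Φ hX
  have b4 : Basic L.Φ (isFlow_on L.flow (S.Ns_inv S.c2)).map (Form.pull S.P1 S.hP1 lX) :=
    basic_pull_loc In.on (isFlow_on L.flow (S.Ns_inv S.c2)) (S.Ns_inv S.c2) LX.flow.map S.hP1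
      S.P1Φ hX
  fin_cases i
  · have h : ((dB.on (Bs S.U S.ν S.c1)).prod (Dif.lin ℝ)).Map (dB.on (Bs S.U S.ν S.c1)) L.Φ :=
      (isFlow_on L.flow (S.Bs_inv S.c1)).map
    change Basic L.Φ h (-Form.pull id Dif.map_on (S.lH A0 C0 F) -
      Form.pull id (Dif.map_on_mono S.Bs_mono) (S.lp A0 C0 F))
    exact Basic.sub (Basic.neg (Basic.pull h L.flow.map Dif.map_on (fun _ _ => rfl) b1))
      (Basic.pull h (isFlow_on L.flow (S.Bs_inv 0)).map (Dif.map_on_mono S.Bs_mono)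
        (fun _ _ => rfl) b2)
  · have h : ((dB.on (Ns S.U S.ν S.c2)).prod (Dif.lin ℝ)).Map (dB.on (Ns S.U S.ν S.c2)) L.Φ :=
      (isFlow_on L.flow (S.Ns_inv S.c2)).map
    change Basic L.Φ h (-Form.pull id Dif.map_on (S.lH A0 C0 F) -
      Form.pull id (Dif.map_on_mono S.Ns_sub) (S.lp A0 C0 F) +
      Form.pull id (Dif.map_on_mono S.Ns_Nr) (Form.pull S.P0 S.hP0 lX) -
      Form.pull S.P1 S.hP1 lX)
    exact Basic.sub (Basic.add (Basic.sub (Basic.neg (Basic.pull h L.flow.map Dif.map_on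
      (fun _ _ => rfl) b1)) (Basic.pull h (isFlow_on L.flow (S.Bs_inv 0)).map
        (Dif.map_on_mono S.Ns_sub) (fun _ _ => rfl) b2))
      (Basic.pull h (isFlow_on L.flow (S.Nr_inv S.c2)).map (Dif.map_on_mono S.Ns_Nr)
        (fun _ _ => rfl) b3)) b4
  · have h : ((dB.on (Nr S.U S.ν S.c0)).prod (Dif.lin ℝ)).Map (dB.on (Nr S.U S.ν S.c0)) L.Φ :=
      (isFlow_on L.flow (S.Nr_inv S.c0)).map
    change Basic L.Φ h (-Form.pull id Dif.map_on (S.lH A0 C0 F) +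
      Form.pull id (Dif.map_on_mono S.Nr_Nr) (Form.pull S.P0 S.hP0 lX))
    exact Basic.add (Basic.neg (Basic.pull h L.flow.map Dif.map_on (fun _ _ => rfl) b1))
      (Basic.pull h (isFlow_on L.flow (S.Nr_inv S.c2)).map (Dif.map_on_mono S.Nr_Nr)
        (fun _ _ => rfl) b3)

end GD

/-- a glued form is basic if its pieces are -/
theorem glueI_basic {ι : Type*} {Φ : B × ℝ → B} (h : IsFlow dB T Φ) {O : ι → Set B}
    (hO : ∀ i, ∀ b ∈ O i, ∀ t, Φ (b, t) ∈ O i) (a : ∀ i, Form (dB.on (O i)))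
    (hab : ∀ (i j : ι) {E : Type} [NormedAddCommGroup E] [NormedSpace ℝ E]
      [FiniteDimensional ℝ E] {u : E → B} {x : E}, (dB.on (O i)).At u x →
        (dB.on (O j)).At u x → (a i).val u x = (a j).val u x)
    (hc : ∀ {E : Type} [NormedAddCommGroup E] [NormedSpace ℝ E]
      [FiniteDimensional ℝ E] {u : E → B} {x : E}, dB.At u x → ∃ i, (dB.on (O i)).At u x)
    (hb : ∀ i, Basic Φ (isFlow_on h (hO i)).map (a i)) :
    Basic Φ h.map (glueI a hab hc) := by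
  rw [basic_def]
  refine Form.ext_val fun E _ _ _ v y hv => ?_
  obtain ⟨i, hi⟩ := hc (show dB.At (fun z => (v z).1) y from hv.1)
  have hv' : ((dB.on (O i)).prod (Dif.lin ℝ)).At v y := ⟨hi, hv.2⟩
  have h1 : (dB.on (O i)).At (fun z => Φ (v z)) y := (isFlow_on h (hO i)).map hv'
  have h2 : Form.pull Φ (isFlow_on h (hO i)).map (a i) = pr (a i) := hb i
  have h3 := congrArg (fun w : Form ((dB.on (O i)).prod (Dif.lin ℝ)) => w.val v y) h2
  change (Form.pull Φ (isFlow_on h (hO i)).map (a i)).val v y =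
    (Form.pull Prod.fst Dif.map_fst (a i)).val v y at h3
  rw [Form.pull_val _ _ hv', Form.pull_val _ _ hv'] at h3
  rw [Form.pull_val _ _ hv]
  change _ = (Form.pull Prod.fst Dif.map_fst (glueI a hab hc)).val v y
  rw [Form.pull_val _ _ hv]
  change (glueI a hab hc).val (fun z => Φ (v z)) y = (glueI a hab hc).val (fun z => (v z).1) y
  rw [glueI_val a hab hc h1, glueI_val a hab hc hi]
  exact h3

namespace GD

variable {L : Lf dB dM T} {LX : Lf dX dM T} {X1 : Set X} (S : GD L LX X1)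
  {A0 C0 : ℝ} {F : Form dM} {lX : Form dX}

include S in
/-- **the gluing lemma** -/
theorem exists_lam (hT : T ≠ 0) (hF : Cf F) (hb : Basic LX.Φ LX.flow.map lX)
    (hd : lX.d = LX.ta A0 C0 F)
    (hX : ∀ {E : Type} [NormedAddCommGroup E] [NormedSpace ℝ E]
      [FiniteDimensional ℝ E] {v : E → X} {y : E}, dX.At v y → (∀ᶠ z in 𝓝 y, v z ∈ X1) →
        lX.val v y = 0) :
    ∃ lam : Form dB, Basic L.Φ L.flow.map lam ∧ lam.d = L.ta A0 C0 F ∧
      ∀ {E : Type} [NormedAddCommGroup E] [NormedSpace ℝ E] [FiniteDimensional ℝ E]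
        {u : E → B} {x : E}, dB.At u x →
          (∀ᶠ z in 𝓝 x, ∀ t, L.C (L.Φ (u z, t)) = L.C (u z)) → lam.val u x = 0 := by
  refine ⟨glueI (S.loc A0 C0 F lX) (S.compat hX) S.cover,
    glueI_basic L.flow S.Og_inv _ _ _ (S.loc_basic hF hb), ?_, ?_⟩
  · refine Form.ext_val fun E _ _ _ u x hu => ?_
    obtain ⟨i, hi⟩ := S.cover hu
    rw [glueI_d _ _ _ hi, S.loc_d hT hF hd i, Form.pull_val _ _ hi]
    rfl
  · intro E _ _ _ u x hu hz
    have h0 : (dB.on (S.Og 0)).At u x := by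
      refine ⟨hu, ?_⟩
      filter_upwards [hz] with z h1
      intro h2
      obtain ⟨t, ht⟩ := S.Uc _ h2
      exact absurd (h1 t) ht
    rw [glueI_val _ _ _ h0, S.loc0_val h0]
    let Z : Set B := {b | ∀ t, L.C (L.Φ (b, t)) = L.C b}
    have hZ : ∀ b ∈ Z, ∀ t, L.Φ (b, t) ∈ Z := by
      intro b hb t s
      rw [L.flow.add, hb, hb]
    have hZU : ∀ b ∈ Z, b ∉ S.U := fun b hb h2 => by
      obtain ⟨t, ht⟩ := S.Uc _ h2
      exact ht (hb t)
    have e1 : (S.lH A0 C0 F).val u x = 0 := by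
      refine Lf.kt_val_zero L S.hH hZ (fun b hb t s => ?_) hu hz
      rw [S.Hc b hb, S.Hc _ (hZ b hb t), hb]
    have e2 : (S.lp A0 C0 F).val u x = 0 := by
      have hu' : (dB.on (Bs S.U S.ν 0)).At u x :=
        Dif.map_on_mono S.Bs_mono (show (dB.on (Bs S.U S.ν S.c1)).At u x from h0)
      have hp0 : ∀ b ∈ Z, S.Hp (b, 0) = L.C b := fun b hb => by
        rw [S.HpO b (fun h => absurd h (hZU b hb)), S.Hc b hb]
      have hpc : ∀ b ∈ Z, ∀ s, S.Hp (b, s) = L.C b := fun b hb s => by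
        rw [S.Hpc b (fun t => by rw [hp0 _ (hZ b hb t), hp0 b hb, hb]) s, hp0 b hb]
      refine Lf.kt_val_zero S.Ls S.hHp hZ (fun b hb t s => ?_) hu' hz
      change S.Hp (L.Φ (b, t), s) = _
      rw [hpc b hb, hpc _ (hZ b hb t), hb]
    rw [e1, e2, neg_zero, sub_zero]

end GD

end Vale.Agent.P231.S3G
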