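import Vale.Agent.P231.S3G.Ta
import Vale.Agent.P231.WA.Inv

/-!
# P231, stage 3, block G: degrees
-/

set_option linter.unusedSectionVars false
set_option linter.unusedVariables false

open Set Module Filter Topology
open scoped ContDiff

namespace Vale.Agent.P231.S3G

open Fm W H584
open Fm.Form (IsDeg part isDeg_part part_add part_smul part_succ_d)

variable {X : Type*} {D : Dif X} {Φ : X × ℝ → X} (hΦ : (D.prod (Dif.lin ℝ)).Map D Φ) (T : ℝ)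
  {α G : Form D}

theorem isDeg_KT {k : ℕ} (c : ℝ) {w : Form (D.prod (Dif.lin ℝ))} (hw : IsDeg (k + 1) w) :
    IsDeg k (KT c w) := by
  rw [KT]
  exact IsDeg.K (IsDeg.pull hw _ _)

theorem isDeg_Pm {k : ℕ} {w : Form (D.prod (Dif.lin ℝ))} (hw : IsDeg (k + 1) w) :
    IsDeg k (Pm w) := by
  rw [Pm]
  exact IsDeg.K (IsDeg.pull hw _ _)

theorem isDeg_lam {k : ℕ} (hG : IsDeg (k + 1) G) : IsDeg k (lam Φ hΦ T G) := by
  rw [lam_def]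
  refine IsDeg.neg (IsDeg.smul _ (isDeg_KT _ ?_))
  have h1 : IsDeg (1 + k) (dt * Pm (Form.pull Φ hΦ G)) :=
    IsDeg.mul WA.isDeg_dt (isDeg_Pm (IsDeg.pull hG _ _))
  rwa [add_comm] at h1

theorem isDeg_Gh {k : ℕ} (hG : IsDeg (k + 1) G) : IsDeg (k + 1) (Gh Φ hΦ T G) := by
  rw [Gh_def]
  exact IsDeg.sub hG (IsDeg.d (isDeg_lam hΦ T hG))

theorem isDeg_hh {k : ℕ} {a b : Form D} (ha : IsDeg k a) (hb : IsDeg k b) (n : ℕ) :
    IsDeg (k * n) (hh n a b) := by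
  rw [hh]
  refine IsDeg.sum fun i hi => ?_
  have h1 : i ≤ n := Nat.lt_succ_iff.1 (Finset.mem_range.1 hi)
  have h2 := IsDeg.mul (IsDeg.pow ha i) (IsDeg.pow hb (n - i))
  rwa [← mul_add, Nat.add_sub_cancel' h1] at h2

theorem tau_deg (A C : ℝ) (hα : IsDeg 1 α) (hG : IsDeg 8 G) :
    IsDeg 29 (tau A C Φ hΦ T α G) := by
  have h1 : IsDeg 7 (lam Φ hΦ T G) := isDeg_lam hΦ T hG
  have h2 : IsDeg 8 (Gh Φ hΦ T G) := isDeg_Gh hΦ T hG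
  have h3 : IsDeg 23 (y0 2 Φ hΦ T G) := by
    rw [y0_def]
    exact IsDeg.neg (IsDeg.mul h1 (isDeg_hh hG h2 2))
  have h4 : IsDeg 7 (xp Φ hΦ T G) := isDeg_J hΦ T hG
  have h5 : IsDeg 22 (yp 2 Φ hΦ T G) := isDeg_J hΦ T h3
  have h6 : IsDeg 2 (T⁻¹ • α.d) := IsDeg.smul _ (IsDeg.d hα)
  have h7' : IsDeg (1 + 8) ((T⁻¹ • α) * G) := IsDeg.mul (IsDeg.smul _ hα) hG
  have h7 : IsDeg 8 (xc Φ hΦ T α G) := isDeg_J hΦ T h7'
  have h8 : IsDeg 22 (plin A C (T⁻¹ • α.d) (xc Φ hΦ T α G)) := by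
    rw [plin_def]
    exact IsDeg.add (IsDeg.smul _ (IsDeg.mul (IsDeg.pow h6 7) h7))
      (IsDeg.smul _ (IsDeg.pow h6 11))
  rw [tau_def, t2_def]
  exact IsDeg.add (IsDeg.mul h4 h5) (IsDeg.mul h8 h4)

end Vale.Agent.P231.S3G
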