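import Vale.Agent.P231.S3G.Abs
import Vale.Agent.P231.H584.Gau2
import Vale.Agent.P231.H766.Uec5

/-!
# P231, stage 3, block G: change of the connection; the contraction of the short loops
-/

set_option linter.unusedSectionVars false
set_option linter.unusedVariables false

open Set Module Filter Topology
open scoped ContDiff ENNReal

namespace Vale.Agent.P231.S3G

open Fm W H584 H766

section Gauge

variable {X Y M : Type*} {D : Dif X} {D' : Dif Y} {dM : Dif M} {T : ℝ} {O : Set X}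

namespace Lf

variable {A0 C0 : ℝ} {F : Form dM}

/-- the same family with another connection -/
noncomputable def wA (L : Lf D dM T) {α' : Form D}
    (h1 : Form.pull L.Φ L.flow.map α' = pr α' + dt) (h2 : α'.sg = -α') : Lf D dM T where
  Φ := L.Φ
  flow := L.flow
  α := α'
  con := h1
  odd := h2
  C := L.C
  map := L.map

/-- the transgression between two connections -/
noncomputable def gz (A0 C0 : ℝ) (F : Form dM) (L : Lf D dM T) (β : Form D) : Form D :=
  tauG A0 C0 L.Φ L.flow.map T L.α β (Form.pull L.C L.map F)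

theorem gz_basic (L : Lf D dM T) (hF : Cf F) {β : Form D} (hβ : Basic L.Φ L.flow.map β)
    (hβo : β.sg = -β) : Basic L.Φ L.flow.map (gz A0 C0 F L β) :=
  tauG_basic L.flow A0 C0 L.con L.odd hβ hβo (hF.pull L.map).sg

theorem gz_d (L : Lf D dM T) (hT : T ≠ 0) (hF : Cf F) {β : Form D}
    (hβ : Basic L.Φ L.flow.map β) (hβo : β.sg = -β)
    (h1 : Form.pull L.Φ L.flow.map (L.α + β) = pr (L.α + β) + dt)
    (h2 : (L.α + β).sg = -(L.α + β)) :
    (gz A0 C0 F L β).d = (L.wA h1 h2).ta A0 C0 F - L.ta A0 C0 F :=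
  tauG_d L.flow A0 C0 L.con L.odd hβ hβo (hF.pull L.map).sg hT (hF.pull L.map).d
    (hF.pull L.map).cube

theorem gz_pull {L : Lf D dM T} {L' : Lf D' dM T} {f : X → Y} (hf : D.Map D' f)
    (hΦ : ∀ x t, f (L.Φ (x, t)) = L'.Φ (f x, t)) (hα : L.α = Form.pull f hf L'.α)
    (hC : ∀ x, L.C x = L'.C (f x)) (β : Form D') :
    Form.pull f hf (gz A0 C0 F L' β) = gz A0 C0 F L (Form.pull f hf β) := by
  unfold gz
  rw [pull_tauG L.flow.map L'.flow.map hf hΦ, ← hα, pull_pull hf L'.map L.map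
    (fun x => (hC x).symm)]

theorem gz_inv (L : Lf D dM T) (β : Form D) (h : ∀ x t, L.C (L.Φ (x, t)) = L.C x) :
    gz A0 C0 F L β = 0 :=
  tauG_of_basic A0 C0 (hΦ := L.flow.map) T L.α β (basic_pull (hΦ := L.flow.map) L.map h F)

/-- the transgression vanishes where the loops are constant -/
theorem gz_val_zero (L : Lf D dM T) (β : Form D) (hO : ∀ x ∈ O, ∀ t, L.Φ (x, t) ∈ O)
    (h : ∀ x ∈ O, ∀ t, L.C (L.Φ (x, t)) = L.C x) {E : Type} [NormedAddCommGroup E]
    [NormedSpace ℝ E] [FiniteDimensional ℝ E] {u : E → X} {x : E} (hu : D.At u x)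
    (hu2 : ∀ᶠ z in 𝓝 x, u z ∈ O) : (gz A0 C0 F L β).val u x = 0 := by
  refine val_eq_zero _ ?_ hu hu2
  rw [gz_pull (L := L.sub hO) map_inc (fun x t => rfl) rfl (fun x => rfl)]
  exact gz_inv _ _ (fun x t => h _ x.2 t)

end Lf

end Gauge

section Con

variable {B : Type*} {dB : Dif B} {T : ℝ}

/-- the data of the region where the family is in normal form -/
structure Ud (dB : Dif B) (Φ : B × ℝ → B) (U : Set B) (ν : B → ℝ) (c2 : ℝ) : Prop where
  Uo : ∀ {E : Type} [NormedAddCommGroup E] [NormedSpace ℝ E] [FiniteDimensional ℝ E]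
    {u : E → B} {x : E}, dB.At u x → u x ∈ U → ∀ᶠ z in 𝓝 x, u z ∈ U
  Ui : ∀ b ∈ U, ∀ t, Φ (b, t) ∈ U
  hν : (dB.on U).Map (Dif.lin ℝ) ν
  νi : ∀ b ∈ U, ∀ t, ν (Φ (b, t)) = ν b
  closed : ∀ {E : Type} [NormedAddCommGroup E] [NormedSpace ℝ E] [FiniteDimensional ℝ E]
    {u : E → B} {x : E}, dB.At u x → u x ∉ U → ∀ᶠ z in 𝓝 x, u z ∈ U → c2 < ν (u z)

/-- the cut-off -/
noncomputable def cof (c c' s : ℝ) : ℝ := Real.smoothTransition ((c' - s) / (c' - c))

theorem cof_one {c c' s : ℝ} (h : c < c') (hs : s ≤ c) : cof c c' s = 1 :=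
  Real.smoothTransition.one_of_one_le (by
    rw [one_le_div (by linarith)]
    linarith)

theorem cof_zero {c c' s : ℝ} (h : c < c') (hs : c' ≤ s) : cof c c' s = 0 :=
  Real.smoothTransition.zero_of_nonpos
    (div_nonpos_of_nonpos_of_nonneg (by linarith) (by linarith))

theorem contDiff_cof (c c' : ℝ) : ContDiff ℝ ∞ (cof c c') :=
  Real.smoothTransition.contDiff.comp ((contDiff_const.sub contDiff_id).div_const _)

theorem map_cof {U : Set B} {ν : B → ℝ} (hν : (dB.on U).Map (Dif.lin ℝ) ν) (c c' : ℝ) :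
    (dB.on U).Map (Dif.lin ℝ) (fun b => cof c c' (ν b)) := by
  intro E _ _ _ u x hu
  have h1 : Sm (fun z => ν (u z)) x := hν hu
  change Sm (fun z => cof c c' (ν (u z))) x
  filter_upwards [h1] with z hz
  exact (contDiff_cof c c').contDiffAt.comp z hz

variable {Φ : B × ℝ → B} {U : Set B} {ν : B → ℝ} {c2 : ℝ} (hU : Ud dB Φ U ν c2)
  (h : IsFlow dB T Φ)
include hU

/-- the two regions -/
def O2 (U : Set B) (ν : B → ℝ) (c2 : ℝ) : Bool → Set B
  | true => U
  | false => Bs U ν c2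

theorem Ud.cover {E : Type} [NormedAddCommGroup E] [NormedSpace ℝ E] [FiniteDimensional ℝ E]
    {u : E → B} {x : E} (hu : dB.At u x) : ∃ i, (dB.on (O2 U ν c2 i)).At u x := by
  by_cases hx : u x ∈ U
  · exact ⟨true, hu, hU.Uo hu hx⟩
  · exact ⟨false, hu, hU.closed hu hx⟩

theorem Ud.O2_inv (h : IsFlow dB T Φ) (i : Bool) :
    ∀ b ∈ O2 U ν c2 i, ∀ t, Φ (b, t) ∈ O2 U ν c2 i := by
  cases i
  · intro b hb t ht
    have h1 : b ∈ U := by
      have h2 := hU.Ui _ ht (-t)
      rwa [h.add, add_neg_cancel, h.zero] at h2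
    rw [hU.νi b h1]
    exact hb h1
  · exact hU.Ui

/-- the correction of the connection, locally -/
noncomputable def bloc (hU : Ud dB Φ U ν c2) (c : ℝ) (σ : Form (dB.on U)) :
    ∀ i, Form (dB.on (O2 U ν c2 i))
  | true => Form.fn (fun b => cof c c2 (ν b)) (map_cof hU.hν c c2) * σ
  | false => 0

theorem bloc_true {c : ℝ} {σ : Form (dB.on U)} {E : Type} [NormedAddCommGroup E]
    [NormedSpace ℝ E] [FiniteDimensional ℝ E] {u : E → B} {x : E} (hu : (dB.on U).At u x) :
    (bloc hU c σ true).val u x = cof c c2 (ν (u x)) • σ.val u x := by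
  change (Form.fn (fun b => cof c c2 (ν b)) (map_cof hU.hν c c2) * σ).val u x = _
  rw [Form.mul_val, Form.fn_val _ _ hu, ← Algebra.smul_def]

theorem bloc_compat {c : ℝ} (hc : c < c2) {σ : Form (dB.on U)} (i j : Bool) {E : Type}
    [NormedAddCommGroup E] [NormedSpace ℝ E] [FiniteDimensional ℝ E] {u : E → B} {x : E}
    (hi : (dB.on (O2 U ν c2 i)).At u x) (hj : (dB.on (O2 U ν c2 j)).At u x) :
    (bloc hU c σ i).val u x = (bloc hU c σ j).val u x := by
  have key : ∀ (h1 : (dB.on U).At u x) (h2 : (dB.on (Bs U ν c2)).At u x),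
      (bloc hU c σ true).val u x = (bloc hU c σ false).val u x := by
    intro h1 h2
    have e1 : u x ∈ U := h1.2.self_of_nhds
    have e2 : u x ∈ Bs U ν c2 := h2.2.self_of_nhds
    rw [bloc_true hU h1, cof_zero hc (e2 e1).le, zero_smul]
    rfl
  cases i <;> cases j
  · rfl
  · exact (key hj hi).symm
  · exact key hi hj
  · rfl

theorem bloc_basic {c : ℝ} {σ : Form (dB.on U)} (hσ : Basic Φ (isFlow_on h hU.Ui).map σ)
    (i : Bool) : Basic Φ (isFlow_on h (hU.O2_inv h i)).map (bloc hU c σ i) := by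
  cases i
  · exact Basic.zero (hΦ := (isFlow_on h (hU.O2_inv h false)).map)
  · refine Basic.mul (hΦ := (isFlow_on h hU.Ui).map) ?_ hσ
    rw [basic_def]
    refine Form.ext_val fun E _ _ _ v y hv => ?_
    have h1 : (dB.on U).At (fun z => Φ (v z)) y := (isFlow_on h hU.Ui).map hv
    have h2 : (dB.on U).At (fun z => (v z).1) y := hv.1
    set g : B → ℝ := fun b => cof c c2 (ν b) with hg
    have hm : (dB.on U).Map (Dif.lin ℝ) g := map_cof hU.hν c c2
    rw [Form.pull_val _ _ hv]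
    change (Form.fn g hm).val (fun z => Φ (v z)) y =
      (Form.pull Prod.fst Dif.map_fst (Form.fn g hm)).val v y
    rw [Form.pull_val _ _ hv, Form.fn_val _ hm h1]
    change _ = (Form.fn g hm).val (fun z => (v z).1) y
    rw [Form.fn_val _ hm h2]
    have h3 : ν (Φ (v y)) = ν (v y).1 := hU.νi _ h2.2.self_of_nhds _
    change (algebraMap ℝ (Lam E)) (cof c c2 (ν (Φ (v y)))) =
      (algebraMap ℝ (Lam E)) (cof c c2 (ν (v y).1))
    rw [h3]

include h

/-- **a connection with prescribed values near the critical points** -/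
theorem Ud.exists_con {c : ℝ} (hc : c < c2) {α : Form dB} (hα : Form.pull Φ h.map α = pr α + dt)
    (hαo : α.sg = -α) {αr : Form (dB.on U)}
    (hr : Form.pull Φ (isFlow_on h hU.Ui).map αr = pr αr + dt) (hro : αr.sg = -αr) :
    ∃ β : Form dB, Basic Φ h.map β ∧ β.sg = -β ∧
      Form.pull Φ h.map (α + β) = pr (α + β) + dt ∧ (α + β).sg = -(α + β) ∧
      ∀ {E : Type} [NormedAddCommGroup E] [NormedSpace ℝ E] [FiniteDimensional ℝ E]
        {u : E → B} {x : E}, (dB.on (Nr U ν c)).At u x →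
          (α + β).val u x = αr.val u x := by
  set σ : Form (dB.on U) := αr - Form.res U α with hσ
  have hσb : Basic Φ (isFlow_on h hU.Ui).map σ :=
    basic_of_contact (contact_res h hU.Ui hα) hr
  have hσo : σ.sg = -σ := by
    rw [hσ, Form.sg_sub, hro, Form.res_sg, hαo, Form.res_neg]
    abel
  set β : Form dB := glueI (bloc hU c σ) (bloc_compat hU hc) hU.cover with hβ
  have h1 : Basic Φ h.map β := glueI_basic h (hU.O2_inv h) _ _ _ (bloc_basic hU h hσb)
  have h2 : β.sg = -β := by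
    refine Form.ext_val fun E _ _ _ u x hu => ?_
    obtain ⟨i, hi⟩ := hU.cover hu
    rw [Form.sg_val, Form.neg_val, hβ, glueI_val _ _ _ hi]
    cases i
    · change inv (0 : Lam E) = -(0 : Lam E)
      rw [map_zero, neg_zero]
    · rw [bloc_true hU hi, map_smul]
      have h3 := congrArg (fun w : Form (dB.on U) => w.val u x) hσo
      change σ.sg.val u x = (-σ).val u x at h3
      rw [Form.sg_val, Form.neg_val] at h3
      rw [h3, smul_neg]
  have h3 : Form.pull Φ h.map β = pr β := h1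
  refine ⟨β, h1, h2, ?_, ?_, ?_⟩
  · rw [pull_add, hα, h3, pr_add]
    abel
  · rw [Form.sg_add, hαo, h2, neg_add]
  · intro E _ _ _ u x hu
    have hu' : (dB.on U).At u x := ⟨hu.1, hu.2.mono fun z hz => hz.1⟩
    have hi : (dB.on (O2 U ν c2 true)).At u x := hu'
    have h4 : ν (u x) < c := hu.2.self_of_nhds.2
    rw [Form.add_val, hβ, glueI_val _ _ _ hi, bloc_true hU hu', cof_one hc h4.le, one_smul, hσ,
      Form.sub_val, Form.res_val _ hu']
    abel

end Con

section Stages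

variable {B M : Type*} {dB : Dif B} [MetricSpace M] {dM : Dif M}

/-- the action on an invariant subset -/
def onA (A : CAct dB) {O : Set B} (hO : ∀ b ∈ O, ∀ t, A.φ b t ∈ O) : CAct (dB.on O) where
  φ := A.φ
  smooth := fun {E} _ _ _ {u x} hh => ⟨A.smooth ⟨hh.1.1, hh.2⟩, hh.1.2.mono fun y hy => hO _ hy _⟩
  zero := A.zero
  add := A.add
  per := A.per

/-- the contraction of the short loops -/
theorem exists_Hp (A : CAct dB) {O : Set B} (hO : ∀ b ∈ O, ∀ t, A.φ b t ∈ O) {D : ℝ}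
    (g : Geo dM D) {Cp : B → M} (hCp : (dB.on O).Map dM Cp)
    (hvar : ∀ b, eVariationOn (fun t => Cp (A.φ b t)) (Icc 0 1) < 2 * ENNReal.ofReal D)
    {δ : ℝ} (hδ : 0 < δ) (L : List (B → ℂ)) (hL : ∀ f ∈ L, dB.Map (Dif.lin ℂ) f ∧ Equi A f)
    (hcov : ∀ b, ∃ f ∈ L, δ ≤ ‖f b‖) :
    ∃ Hp : B × ℝ → M, ((dB.on O).prod (Dif.lin ℝ)).Map dM Hp ∧ (∀ b, Hp (b, 0) = Cp b) ∧
      (∀ b t, Hp (A.φ b t, 1) = Hp (b, 1)) ∧
      ∀ b, (∀ t, Cp (A.φ b t) = Cp b) → ∀ s, Hp (b, s) = Cp b := by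
  obtain ⟨C', ⟨H, h1, h2, h3, h4, h5⟩, h6⟩ := stages (A := onA A hO) g hCp hvar hδ L
    (fun f hf => ⟨fun {E} _ _ _ {u x} hu => (hL f hf).1 hu.1, (hL f hf).2⟩)
  refine ⟨fun p => H p.1 p.2, h1, fun b => h2 b 0 le_rfl, fun b t => ?_, fun b hb s => h5 b hb s⟩
  change H (A.φ b t) 1 = H b 1
  rw [h3 _ 1 le_rfl, h3 _ 1 le_rfl]
  exact h6 b (hcov b) t

end Stages

end Vale.Agent.P231.S3G
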