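import Vale.Agent.P231.Co.On
import Vale.Agent.P231.H584.Tau

/-!
# P231, stage 3, block G: gluing of locally defined forms, the natural form of a family of loops
-/

set_option linter.unusedSectionVars false
set_option linter.unusedVariables false

open Set Module Filter Topology
open scoped ContDiff

namespace Vale.Agent.P231.S3G

open Fm W H584

variable {X Y : Type*} {D : Dif X} {D' : Dif Y} {ι : Type*}

section Glue

variable {O : ι → Set X} (a : ∀ i, Form (D.on (O i)))
  (hab : ∀ (i j : ι) {E : Type} [NormedAddCommGroup E] [NormedSpace ℝ E]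
    [FiniteDimensional ℝ E] {u : E → X} {x : E}, (D.on (O i)).At u x → (D.on (O j)).At u x →
      (a i).val u x = (a j).val u x)
  (hc : ∀ {E : Type} [NormedAddCommGroup E] [NormedSpace ℝ E]
    [FiniteDimensional ℝ E] {u : E → X} {x : E}, D.At u x → ∃ i, (D.on (O i)).At u x)

open Classical in
/-- gluing a family of locally defined forms -/
noncomputable def glueI : Form D :=
  Form.mk' (fun u x => if h : ∃ i, (D.on (O i)).At u x then (a h.choose).val u x else 0)
    (fun {E} _ _ _ {u x} h => by
      obtain ⟨i, hi⟩ := hc h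
      refine ((a i).smooth hi).congr_of_eventuallyEq ?_
      filter_upwards [(D.on (O i)).open' hi] with y hy
      have h1 : ∃ i, (D.on (O i)).At u y := ⟨i, hy⟩
      rw [dif_pos h1]
      exact hab _ _ h1.choose_spec hy)
    (fun {E F} _ _ _ _ _ _ {u g x} h hg => by
      obtain ⟨i, hi⟩ := hc h
      have h1 : ∃ i, (D.on (O i)).At u (g x) := ⟨i, hi⟩
      have h2 : (D.on (O i)).At (u ∘ g) x := (D.on (O i)).comp hi hg
      have h3 : ∃ i, (D.on (O i)).At (u ∘ g) x := ⟨i, h2⟩
      rw [dif_pos h1, dif_pos h3, hab _ i h1.choose_spec hi, hab _ i h3.choose_spec h2,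
        (a i).nat hi hg])
    (fun {E} _ _ _ {u v x} h huv => by
      obtain ⟨i, hi⟩ := hc h
      have h1 : ∃ i, (D.on (O i)).At u x := ⟨i, hi⟩
      have h2 : (D.on (O i)).At v x := (D.on (O i)).congr hi huv
      have h3 : ∃ i, (D.on (O i)).At v x := ⟨i, h2⟩
      rw [dif_pos h1, dif_pos h3, hab _ i h1.choose_spec hi, hab _ i h3.choose_spec h2,
        (a i).congr hi huv])

variable {E : Type} [NormedAddCommGroup E] [NormedSpace ℝ E] [FiniteDimensional ℝ E]

theorem glueI_val {i : ι} {u : E → X} {x : E} (h : (D.on (O i)).At u x) :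
    (glueI a hab hc).val u x = (a i).val u x := by
  have h1 : ∃ i, (D.on (O i)).At u x := ⟨i, h⟩
  rw [glueI, Form.mk'_val h.1, dif_pos h1]
  exact hab _ _ h1.choose_spec h

theorem glueI_val_ev {i : ι} {u : E → X} {x : E} (h : (D.on (O i)).At u x) :
    (glueI a hab hc).val u =ᶠ[𝓝 x] (a i).val u := by
  filter_upwards [(D.on (O i)).open' h] with y hy using glueI_val a hab hc hy

theorem glueI_d {i : ι} {u : E → X} {x : E} (h : (D.on (O i)).At u x) :
    (glueI a hab hc).d.val u x = (a i).d.val u x := by
  rw [Form.d_val _ h.1, Form.d_val _ h, extd_congr (glueI_val_ev a hab hc h)]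

theorem glueI_sg {i : ι} {u : E → X} {x : E} (h : (D.on (O i)).At u x) :
    (glueI a hab hc).sg.val u x = (a i).sg.val u x := by
  rw [Form.sg_val, Form.sg_val, glueI_val a hab hc h]

end Glue

section Eqv

variable {E : Type} [NormedAddCommGroup E] [NormedSpace ℝ E] [FiniteDimensional ℝ E]

/-- equality of two forms can be checked locally -/
theorem ext_cov {O : ι → Set X} {a b : Form D}
    (hc : ∀ {E : Type} [NormedAddCommGroup E] [NormedSpace ℝ E]
      [FiniteDimensional ℝ E] {u : E → X} {x : E}, D.At u x → ∃ i, (D.on (O i)).At u x)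
    (h : ∀ i (E : Type) [NormedAddCommGroup E] [NormedSpace ℝ E]
      [FiniteDimensional ℝ E] (u : E → X) (x : E), (D.on (O i)).At u x → a.val u x = b.val u x) :
    a = b := Form.ext_val fun E _ _ _ u x hu => by
  obtain ⟨i, hi⟩ := hc hu
  exact h i E u x hi

/-- the value of a pullback only depends on the germ of the map -/
theorem pull_val_congr {f g : X → Y} (hf : D.Map D' f) (w : Form D') {u : E → X} {x : E}
    (h : D.At u x) (hfg : ∀ᶠ y in 𝓝 x, f (u y) = g (u y)) :
    (Form.pull f hf w).val u x = w.val (g ∘ u) x := by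
  rw [Form.pull_val hf _ h]
  exact w.congr (hf h) hfg

theorem pull_eq_pull {f g : X → Y} (hf : D.Map D' f) (hg : D.Map D' g) (h : ∀ x, f x = g x)
    (w : Form D') : Form.pull f hf w = Form.pull g hg w := by
  obtain rfl : f = g := funext h
  rfl

end Eqv

end Vale.Agent.P231.S3G
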